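import Mathlib

namespace Vale.Agent.P012

open Finset

/-- `U k x`: the rational `x` is a sum of at most `k` unit fractions (repeats allowed). -/
def U (k : ℕ) (x : ℚ) : Prop :=
  ∃ l : List ℕ, l.length ≤ k ∧ (∀ n ∈ l, 0 < n) ∧ (l.map (fun n : ℕ => (1 : ℚ) / n)).sum = x

lemma U_zero (k : ℕ) : U k 0 := ⟨[], by simp, by simp, by simp⟩

lemma U.mono {k l : ℕ} {x : ℚ} (h : U k x) (hkl : k ≤ l) : U l x := by
  obtain ⟨L, h1, h2, h3⟩ := h
  exact ⟨L, h1.trans hkl, h2, h3⟩

lemma U_one {n : ℕ} (hn : 0 < n) : U 1 ((1 : ℚ) / n) :=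
  ⟨[n], by simp, by simpa using hn, by simp⟩

lemma U.add {k l : ℕ} {x y : ℚ} (hx : U k x) (hy : U l y) : U (k + l) (x + y) := by
  obtain ⟨L, h1, h2, h3⟩ := hx
  obtain ⟨M, g1, g2, g3⟩ := hy
  refine ⟨L ++ M, by simp; omega, ?_, by simp only [List.map_append, List.sum_append, h3, g3]⟩
  intro n hn
  rcases List.mem_append.1 hn with h | h
  · exact h2 n h
  · exact g2 n h

lemma U.div {k : ℕ} {x : ℚ} (hx : U k x) {t : ℕ} (ht : 0 < t) : U k (x / t) := by
  obtain ⟨L, h1, h2, h3⟩ := hx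
  refine ⟨L.map (fun n => n * t), by simpa using h1, ?_, ?_⟩
  · intro n hn
    obtain ⟨m, hm, rfl⟩ := List.mem_map.1 hn
    exact Nat.mul_pos (h2 m hm) ht
  · rw [← h3, List.map_map]
    clear h1 h2 h3
    induction L with
    | nil => simp
    | cons a L ih =>
      simp only [List.map_cons, List.sum_cons, ih, add_div, Function.comp]
      congr 1
      push_cast
      rw [div_div]

/-- a divisor of the denominator costs one term -/
lemma U_dvd {d N : ℕ} (hN : 0 < N) (hd : d ∣ N) : U 1 ((d : ℚ) / N) := by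
  obtain ⟨e, rfl⟩ := hd
  have he : 0 < e := Nat.pos_of_mul_pos_left hN
  have hd : 0 < d := Nat.pos_of_mul_pos_right hN
  have : ((d : ℚ) / ((d * e : ℕ) : ℚ)) = (1 : ℚ) / e := by
    push_cast
    field_simp
  rw [this]
  exact U_one he

/-- closure under passing to a divisor of the numerator -/
lemma U.of_dvd {k m n N : ℕ} (h : U k ((n : ℚ) / N)) (hn : 0 < n) (hm : m ∣ n) :
    U k ((m : ℚ) / N) := by
  obtain ⟨t, rfl⟩ := hm
  have ht : 0 < t := Nat.pos_of_mul_pos_left hn
  have := h.div ht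
  have e : ((m * t : ℕ) : ℚ) / N / t = (m : ℚ) / N := by
    push_cast
    field_simp
  rwa [e] at this

/-- enlarge the denominator, multiplying the numerator by a divisor of the new factor -/
lemma U.mul_dvd {k m N d M : ℕ} (h : U k ((m : ℚ) / N)) (hM : 0 < M) (hd : d ∣ M) :
    U k (((d * m : ℕ) : ℚ) / ((N * M : ℕ) : ℚ)) := by
  obtain ⟨e, rfl⟩ := hd
  have he : 0 < e := Nat.pos_of_mul_pos_left hM
  have hd : 0 < d := Nat.pos_of_mul_pos_right hM
  have := h.div he
  have e' : ((d * m : ℕ) : ℚ) / ((N * (d * e) : ℕ) : ℚ) = (m : ℚ) / N / e := by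
    push_cast
    rcases eq_or_ne (N : ℚ) 0 with h0 | h0
    · simp [h0]
    · field_simp
  rwa [e']

/-- digit expansion -/
lemma U_digits {k N Y : ℕ} (hY : 0 < Y) (H : ∀ m < Y, U k ((m : ℚ) / N)) :
    ∀ h : ℕ, ∀ m < Y ^ h, U (h * k) ((m : ℚ) / ((N * Y ^ h : ℕ) : ℚ)) := by
  intro h
  induction h with
  | zero =>
    intro m hm
    have : m = 0 := by simpa using hm
    subst this
    simpa using U_zero 0
  | succ h ih =>
    intro m hm
    have h1 : m / Y < Y ^ h := by
      rw [Nat.div_lt_iff_lt_mul hY]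
      simpa [pow_succ] using hm
    have h2 : m % Y < Y := Nat.mod_lt _ hY
    have a := ih _ h1
    have b := (H _ h2).div (t := Y ^ (h + 1)) (by positivity)
    have := a.add b
    have e : (m : ℚ) / ((N * Y ^ (h + 1) : ℕ) : ℚ) =
        ((m / Y : ℕ) : ℚ) / ((N * Y ^ h : ℕ) : ℚ) + ((m % Y : ℕ) : ℚ) / N / ((Y ^ (h + 1) : ℕ) : ℚ) := by
      have hm' : (m : ℚ) = Y * ((m / Y : ℕ) : ℚ) + ((m % Y : ℕ) : ℚ) := by
        exact_mod_cast (Nat.div_add_mod m Y).symm
      rcases eq_or_ne (N : ℚ) 0 with h0 | h0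
      · push_cast
        simp [h0]
      · have hY' : (Y : ℚ) ≠ 0 := by positivity
        generalize ((m / Y : ℕ) : ℚ) = u at *
        generalize ((m % Y : ℕ) : ℚ) = v at *
        rw [hm']
        push_cast
        field_simp
        ring
    rw [e, Nat.succ_mul]
    exact this

/-- binary expansion -/
lemma U_binary (t m : ℕ) (hm : m < 2 ^ t) : U t ((m : ℚ) / ((2 ^ t : ℕ) : ℚ)) := by
  have := U_digits (k := 1) (N := 1) (Y := 2) (by norm_num) (by
    intro m hm
    interval_cases m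
    · simpa using U_zero 1
    · simpa using U_one (n := 1) one_pos) t m hm
  simpa using this

/-- one greedy step -/
lemma greedy_step {a b u : ℕ} (ha : 0 < a) (hu : 0 < u) (h : a * u < b) :
    ∃ n a' : ℕ, 0 < n ∧ n ≤ b ∧ a' < a ∧ (a' = 0 ∨ a' * (u * (u + 1)) < b * n) ∧
      (a : ℚ) / b = (a' : ℚ) / ((b * n : ℕ) : ℚ) + 1 / n := by
  have hb : 0 < b := by omega
  set n := (b - 1) / a + 1 with hn
  have h1 : a * ((b - 1) / a) + (b - 1) % a = b - 1 := Nat.div_add_mod _ _
  have h2 : (b - 1) % a < a := Nat.mod_lt _ ha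
  have h3 : u ≤ (b - 1) / a := by
    rw [Nat.le_div_iff_mul_le ha]
    rw [mul_comm]; omega
  have h4 : (b - 1) / a ≤ b - 1 := Nat.div_le_self _ _
  set q := (b - 1) / a with hq
  have hle : b ≤ a * n := by rw [hn, mul_add]; omega
  refine ⟨n, a * n - b, by omega, by omega, by rw [hn, mul_add]; omega, ?_, ?_⟩
  · right
    have h5 : a * n - b < a := by rw [hn, mul_add]; omega
    have h6 : a * q < b := by omega
    calc (a * n - b) * (u * (u + 1)) ≤ a * (q * (q + 1)) := by gcongr
      _ = (a * q) * n := by rw [hn]; ring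
      _ < b * n := by
        apply Nat.mul_lt_mul_of_pos_right h6
        omega
  · push_cast [Nat.cast_sub hle]
    have : (n : ℚ) ≠ 0 := by positivity
    have : (b : ℚ) ≠ 0 := by positivity
    field_simp
    ring

/-- the greedy reduction to a tiny fraction -/
lemma greedy {K A L : ℕ}
    (H : ∀ a B : ℕ, a ≤ A → L ≤ B → B ≤ L ^ 2 → U K ((a : ℚ) / B)) :
    ∀ j : ℕ, ∀ a b u : ℕ, a ≤ A → b ≤ L ^ 2 → 0 < u → a * u < b → L ≤ u ^ (2 ^ j) →
      U (K + j) ((a : ℚ) / b) := by
  intro j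
  induction j with
  | zero =>
    intro a b u ha hb hu hab hL
    rcases Nat.eq_zero_or_pos a with rfl | ha0
    · simpa using U_zero _
    · apply H a b ha _ hb
      simp at hL
      nlinarith
  | succ j ih =>
    intro a b u ha hb hu hab hL
    rcases Nat.eq_zero_or_pos a with rfl | ha0
    · simpa using U_zero _
    by_cases hLb : L ≤ b
    · exact (H a b ha hLb hb).mono (by omega)
    obtain ⟨n, a', hn, hnb, ha', h1, h2⟩ := greedy_step ha0 hu hab
    rw [h2]
    refine U.add (k := K + j) (l := 1) ?_ (U_one hn)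
    rcases h1 with rfl | h1
    · simpa using U_zero _
    apply ih a' (b * n) (u * (u + 1)) (by omega) _ (by positivity) h1
    · calc L ≤ u ^ 2 ^ (j + 1) := hL
        _ = (u * u) ^ 2 ^ j := by rw [pow_succ, mul_comm, pow_mul, sq]
        _ ≤ _ := by gcongr; omega
    · have : b ≤ L := by omega
      calc b * n ≤ L * L := by gcongr; omega
        _ = L ^ 2 := by ring

lemma two_div_split {n : ℕ} (hn : 3 ≤ n) :
    ∃ u v : ℕ, 0 < u ∧ u < n ∧ 0 < v ∧ (1 : ℚ) / u + 1 / v = 1 / n + 1 / n := by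
  rcases Nat.even_or_odd' n with ⟨j, rfl | rfl⟩
  · refine ⟨j + 1, j * (j + 1), by omega, by omega, Nat.mul_pos (by omega) (by omega), ?_⟩
    have : (j : ℚ) ≠ 0 := by
      have : 0 < j := by omega
      positivity
    push_cast
    field_simp
    ring
  · refine ⟨j + 1, (j + 1) * (2 * j + 1), by omega, by omega, by positivity, ?_⟩
    push_cast
    field_simp
    ring

/-- Takenouchi: repeats can be removed without adding terms. -/
lemma distinct_of_fun {j : ℕ} {x : ℚ} (hx : x < 1) (f : Fin j → ℕ) (hf : ∀ i, 0 < f i)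
    (hs : ∑ i, (1 : ℚ) / f i = x) :
    ∃ g : Fin j → ℕ, Function.Injective g ∧ (∀ i, 2 ≤ g i) ∧ ∑ i, (1 : ℚ) / g i = x := by
  classical
  let S : Set (Lex (Fin j → ℕ)) := {f | (∀ i, 0 < f i) ∧ ∑ i, (1 : ℚ) / f i = x}
  have hne : S.Nonempty := ⟨toLex f, hf, hs⟩
  obtain ⟨g, ⟨hg0, hgs⟩, hmin⟩ := (wellFounded_lt (α := Lex (Fin j → ℕ))).has_min S hne
  have key : ∀ i i' : Fin j, i < i' → g i ≠ g i' := by
    intro i i' hlt heq
    have hne' : i ≠ i' := ne_of_lt hlt
    have hsplit : ∀ h : Fin j → ℕ, ∑ t, (1 : ℚ) / h t =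
        1 / h i + 1 / h i' + ∑ t ∈ (univ.erase i).erase i', (1 : ℚ) / h t := by
      intro h
      rw [← Finset.add_sum_erase _ _ (mem_univ i),
        ← Finset.add_sum_erase _ _ (a := i') (by simp [hne'.symm]), add_assoc]
    have hrest : 0 ≤ ∑ t ∈ (univ.erase i).erase i', (1 : ℚ) / g t :=
      Finset.sum_nonneg fun _ _ => by positivity
    have h3 : 3 ≤ g i := by
      by_contra hlt3
      have h0 := hg0 i
      have hle : (g i : ℚ) ≤ 2 := by exact_mod_cast (by omega : g i ≤ 2)
      have hpos : (0 : ℚ) < g i := by exact_mod_cast h0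
      have : (1 : ℚ) / 2 ≤ 1 / g i := one_div_le_one_div_of_le hpos hle
      have e := hsplit g
      rw [hgs, ← heq] at e
      linarith
    obtain ⟨u, v, hu, hun, hv, huv⟩ := two_div_split h3
    let g' : Fin j → ℕ := fun t => if t = i then u else if t = i' then v else g t
    have g'i : g' i = u := by simp [g']
    have g'i' : g' i' = v := by simp [g', hne'.symm]
    have g'o : ∀ t, t ≠ i → t ≠ i' → g' t = g t := by
      intro t h1 h2
      simp [g', h1, h2]
    apply hmin (toLex g')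
    · refine ⟨?_, ?_⟩
      · intro t
        change 0 < g' t
        by_cases h1 : t = i
        · rw [h1, g'i]; exact hu
        by_cases h2 : t = i'
        · rw [h2, g'i']; exact hv
        rw [g'o t h1 h2]; exact hg0 t
      · change ∑ t, (1 : ℚ) / g' t = x
        rw [hsplit g', g'i, g'i', huv, ← hgs, hsplit g, ← heq]
        congr 1
        apply Finset.sum_congr rfl
        intro t ht
        simp only [mem_erase] at ht
        rw [g'o t ht.2.1 ht.1]
    · refine ⟨i, ?_, ?_⟩
      · intro t ht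
        exact g'o t (ne_of_lt ht) (ne_of_lt (ht.trans hlt))
      · change g' i < g i
        rw [g'i]; exact hun
  refine ⟨g, ?_, ?_, hgs⟩
  · intro i i' h
    rcases lt_trichotomy i i' with h1 | h1 | h1
    · exact absurd h (key _ _ h1)
    · exact h1
    · exact absurd h.symm (key _ _ h1)
  · intro i
    by_contra hlt
    have h0 := hg0 i
    have h1 : g i = 1 := by omega
    have : (1 : ℚ) / g i ≤ ∑ t, (1 : ℚ) / g t :=
      Finset.single_le_sum (f := fun t => (1 : ℚ) / g t) (fun _ _ => by positivity) (mem_univ i)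
    rw [h1, hgs] at this
    norm_num at this
    linarith

lemma U.distinct {k : ℕ} {x : ℚ} (h : U k x) (hx : x < 1) :
    ∃ S : Finset ℕ, S.card ≤ k ∧ (∀ n ∈ S, 2 ≤ n) ∧ ∑ n ∈ S, (1 : ℚ) / n = x := by
  classical
  obtain ⟨L, h1, h2, h3⟩ := h
  obtain ⟨g, hg, hg2, hgs⟩ := distinct_of_fun (j := L.length) hx L.get
    (fun i => h2 _ (List.get_mem _ _)) (by
      rw [← h3, ← List.sum_ofFn]
      congr 1
      conv_rhs => rw [← List.ofFn_get L, List.map_ofFn]
      rfl)
  refine ⟨univ.image g, ?_, ?_, ?_⟩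
  · rw [card_image_of_injective _ hg]; simpa using h1
  · intro n hn
    obtain ⟨i, _, rfl⟩ := mem_image.1 hn
    exact hg2 i
  · rw [sum_image (fun a _ b _ h => hg h), hgs]

end Vale.Agent.P012
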