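import Mathlib
import Vale.Agent.P012.Basic

namespace Vale.Agent.P012

open Finset

lemma card_primeFactors_le {n w : ℕ} (hn : 0 < n) (h : n ≤ 2 ^ w) : n.primeFactors.card ≤ w := by
  have h1 : 2 ^ n.primeFactors.card ≤ ∏ p ∈ n.primeFactors, p :=
    Finset.pow_card_le_prod _ _ _ fun p hp => (Nat.prime_of_mem_primeFactors hp).two_le
  have h2 : ∏ p ∈ n.primeFactors, p ≤ n := Nat.le_of_dvd hn (Nat.prod_primeFactors_dvd n)
  exact (Nat.pow_le_pow_iff_right (by norm_num)).1 (h1.trans (h2.trans h))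

/-- Some prime `p ≤ Q` separates at least half of the elements of `D`. -/
lemma exists_modulus (D : Finset ℕ) (w Q : ℕ) (hD : ∀ d ∈ D, d ≤ 2 ^ w) (hw : 0 < w)
    (hDpos : 0 < D.card) (hQ : 2 * D.card * w ≤ Nat.primeCounting Q) :
    ∃ p : ℕ, p.Prime ∧ p ≤ Q ∧ ∃ D' ⊆ D, D.card ≤ 2 * D'.card ∧
      ∀ d ∈ D', ∀ d' ∈ D', d ≡ d' [MOD p] → d = d' := by
  classical
  let C : ℕ → Finset (ℕ × ℕ) := fun p =>
    (D ×ˢ D).filter (fun x => x.1 < x.2 ∧ p ∣ x.2 - x.1)
  have hsum : ∑ p ∈ Nat.primesLE Q, (C p).card ≤ D.card * D.card * w := by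
    calc ∑ p ∈ Nat.primesLE Q, (C p).card
        = ∑ p ∈ Nat.primesLE Q, ∑ x ∈ D ×ˢ D, (if x.1 < x.2 ∧ p ∣ x.2 - x.1 then 1 else 0) := by
          refine Finset.sum_congr rfl fun p _ => ?_
          simp only [C, Finset.card_filter]
      _ = ∑ x ∈ D ×ˢ D, ∑ p ∈ Nat.primesLE Q, (if x.1 < x.2 ∧ p ∣ x.2 - x.1 then 1 else 0) :=
          Finset.sum_comm
      _ ≤ ∑ x ∈ D ×ˢ D, w := by
          refine Finset.sum_le_sum fun x hx => ?_
          rw [← Finset.card_filter]
          by_cases h : x.1 < x.2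
          · have hx2 := hD _ (mem_product.1 hx).2
            refine le_trans (card_le_card ?_)
              (card_primeFactors_le (n := x.2 - x.1) (by omega) (by omega))
            intro p hp
            simp only [mem_filter] at hp
            exact Nat.mem_primeFactors.2 ⟨Nat.prime_of_mem_primesLE hp.1, hp.2.2, by omega⟩
          · simp [h]
      _ = _ := by simp
  have hne : (Nat.primesLE Q).Nonempty := by
    rw [← card_pos, Nat.primesLE_card_eq_primeCounting]
    have : 0 < 2 * D.card * w := by positivity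
    omega
  obtain ⟨p, hp, hmin⟩ := Finset.exists_min_image (Nat.primesLE Q) (fun p => (C p).card) hne
  have h1 : Nat.primeCounting Q * (C p).card ≤ D.card * D.card * w := by
    refine le_trans ?_ hsum
    rw [← Nat.primesLE_card_eq_primeCounting, ← smul_eq_mul]
    exact Finset.card_nsmul_le_sum _ _ _ hmin
  have h2 : 2 * (C p).card ≤ D.card := by
    have : (D.card * w) * (2 * (C p).card) ≤ (D.card * w) * D.card := by
      calc _ = (2 * D.card * w) * (C p).card := by ring
        _ ≤ Nat.primeCounting Q * (C p).card := by gcongr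
        _ ≤ D.card * D.card * w := h1
        _ = _ := by ring
    exact Nat.le_of_mul_le_mul_left this (by positivity)
  refine ⟨p, Nat.prime_of_mem_primesLE hp, Nat.le_of_mem_primesLE hp,
    D \ (C p).image Prod.snd, sdiff_subset, ?_, ?_⟩
  · have h3 : ((C p).image Prod.snd).card ≤ (C p).card := card_image_le
    have h4 := Finset.le_card_sdiff ((C p).image Prod.snd) D
    omega
  · have key : ∀ d ∈ D \ (C p).image Prod.snd, ∀ d' ∈ D \ (C p).image Prod.snd,
        d < d' → ¬ d ≡ d' [MOD p] := by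
      intro d hd d' hd' hlt hmod
      apply (mem_sdiff.1 hd').2
      refine mem_image.2 ⟨(d, d'), ?_, rfl⟩
      simp only [C, mem_filter, mem_product]
      exact ⟨⟨(mem_sdiff.1 hd).1, (mem_sdiff.1 hd').1⟩, hlt, (Nat.modEq_iff_dvd' hlt.le).1 hmod⟩
    intro d hd d' hd' hmod
    rcases lt_trichotomy d d' with h | h | h
    · exact absurd hmod (key d hd d' hd' h)
    · exact h
    · exact absurd hmod.symm (key d' hd' d hd h)

/-- The set of the sums `∑ p ^ i * d i`. -/
lemma bigset (D : Finset ℕ) (P p : ℕ) (hP : 0 < P) (hp : 2 ≤ p) (hD : ∀ d ∈ D, d ∣ P)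
    (hsep : ∀ d ∈ D, ∀ d' ∈ D, d ≡ d' [MOD p] → d = d') :
    ∀ s : ℕ, ∃ A : Finset ℕ, A.card = D.card ^ s ∧
      ∀ a ∈ A, (s = 0 ∨ 0 < a) ∧ a + P ≤ P * p ^ s ∧ U s ((a : ℚ) / ((P * p ^ s : ℕ) : ℚ)) := by
  classical
  intro s
  induction s with
  | zero =>
    refine ⟨{0}, by simp, ?_⟩
    intro a ha
    have : a = 0 := by simpa using ha
    subst this
    refine ⟨Or.inl rfl, by simp, ?_⟩
    simpa using U_zero 0
  | succ s ih =>
    obtain ⟨A, hA, hA2⟩ := ih
    refine ⟨(D ×ˢ A).image (fun x => x.1 + p * x.2), ?_, ?_⟩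
    · rw [card_image_of_injOn, card_product, hA, pow_succ, mul_comm]
      rintro ⟨d, a⟩ hx ⟨d', a'⟩ hy hxy
      simp only [coe_product, Set.mem_prod, mem_coe] at hx hy
      simp only at hxy
      have h1 : d = d' := by
        apply hsep d hx.1 d' hy.1
        have : d + p * a ≡ d' + p * a' [MOD p] := by rw [hxy]
        simpa [Nat.ModEq] using this
      subst h1
      have h2 : p * a = p * a' := by omega
      have h3 : a = a' := Nat.eq_of_mul_eq_mul_left (by omega) h2
      rw [h3]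
    · intro b hb
      obtain ⟨⟨d, a⟩, hx, rfl⟩ := mem_image.1 hb
      obtain ⟨hd, ha⟩ := mem_product.1 hx
      simp only at hd ha ⊢
      obtain ⟨_, h2, h3⟩ := hA2 a ha
      have hdP := hD d hd
      have hd0 : 0 < d := Nat.pos_of_dvd_of_pos hdP hP
      have hd1 : d ≤ P := Nat.le_of_dvd hP hdP
      refine ⟨Or.inr (by omega), ?_, ?_⟩
      · calc d + p * a + P ≤ p * a + 2 * P := by omega
          _ ≤ p * a + p * P := by gcongr
          _ = p * (a + P) := by ring
          _ ≤ p * (P * p ^ s) := by gcongr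
          _ = _ := by ring
      · have h4 : U 1 ((d : ℚ) / ((P * p ^ (s + 1) : ℕ) : ℚ)) :=
          U_dvd (by positivity) (hdP.mul_right _)
        have := h3.add h4
        have e : ((d + p * a : ℕ) : ℚ) / ((P * p ^ (s + 1) : ℕ) : ℚ) =
            (a : ℚ) / ((P * p ^ s : ℕ) : ℚ) + (d : ℚ) / ((P * p ^ (s + 1) : ℕ) : ℚ) := by
          have : (p : ℚ) ≠ 0 := by positivity
          have : (P : ℚ) ≠ 0 := by positivity
          push_cast
          field_simp
          ring
        rw [e]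
        exact this

/-- the divisors of a product of `r` primes -/
lemma exists_divisor_set (R : Finset ℕ) (hR : ∀ p ∈ R, p.Prime) :
    ∃ D : Finset ℕ, D.card = 2 ^ R.card ∧ ∀ d ∈ D, d ∣ ∏ p ∈ R, p := by
  classical
  refine ⟨R.powerset.image (fun S => ∏ p ∈ S, p), ?_, ?_⟩
  · rw [card_image_of_injOn, card_powerset]
    intro S hS T hT hST
    have h1 := Nat.primeFactors_prod (s := S) fun p hp => hR p (mem_powerset.1 hS hp)
    have h2 := Nat.primeFactors_prod (s := T) fun p hp => hR p (mem_powerset.1 hT hp)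
    simp only at hST
    rw [← h1, ← h2, hST]
  · intro d hd
    obtain ⟨S, hS, rfl⟩ := mem_image.1 hd
    exact Finset.prod_dvd_prod_of_subset _ _ _ (mem_powerset.1 hS)

/-- Chebyshev's lower bound at powers of two -/
lemma cheb (n : ℕ) (hn : 1 ≤ n) : 2 ^ n ≤ 3 * n * Nat.primeCounting (2 ^ n) := by
  set N := 2 ^ n with hN
  have hN2 : 2 ≤ N := by
    calc 2 = 2 ^ 1 := by norm_num
      _ ≤ 2 ^ n := Nat.pow_le_pow_right (by norm_num) hn
  have h1 := Chebyshev.two_pow_le_mul_lcmUpto N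
  have h2 : Nat.lcmUpto N ≤ N ^ Nat.primeCounting N := by
    rw [Nat.lcmUpto_eq_prod_pow_log, ← Nat.primesLE_card_eq_primeCounting]
    exact Finset.prod_le_pow_card _ _ _ fun p _ => Nat.pow_log_le_self p (by omega)
  have h3 : 1 ≤ Nat.primeCounting N := by
    rw [Nat.one_le_iff_ne_zero, Ne, Nat.primeCounting_eq_zero_iff]
    omega
  have h4 : 2 ^ N ≤ 2 ^ (n + 1 + n * Nat.primeCounting N) := by
    calc 2 ^ N ≤ (N + 1) * Nat.lcmUpto N := h1
      _ ≤ (2 * N) * N ^ Nat.primeCounting N := by gcongr; omega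
      _ = _ := by rw [hN, pow_add, pow_mul, pow_succ]; ring
  have h5 := (Nat.pow_le_pow_iff_right (by norm_num)).1 h4
  nlinarith

lemma cheb_sum (n : ℕ) : ∀ t : ℕ, t < n →
    t * 2 ^ n ≤ 6 * n * ∑ d ∈ Icc 1 (2 ^ t), Nat.primeCounting (2 ^ n / d) := by
  intro t
  induction t with
  | zero => simp
  | succ t ih =>
    intro ht
    have h1 := ih (by omega)
    have hsplit : Icc 1 (2 ^ (t + 1)) = Icc 1 (2 ^ t) ∪ Ioc (2 ^ t) (2 ^ (t + 1)) := by
      ext x
      simp only [mem_Icc, mem_union, mem_Ioc]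
      have : 0 < 2 ^ t := by positivity
      omega
    have hdisj : Disjoint (Icc 1 (2 ^ t)) (Ioc (2 ^ t) (2 ^ (t + 1))) := by
      rw [Finset.disjoint_left]
      intro x hx hx'
      simp only [mem_Icc, mem_Ioc] at hx hx'
      omega
    rw [hsplit, Finset.sum_union hdisj]
    obtain ⟨m, rfl⟩ : ∃ m, n = m + (t + 1) := ⟨n - (t + 1), by omega⟩
    have h2 : 2 ^ t * Nat.primeCounting (2 ^ m) ≤
        ∑ d ∈ Ioc (2 ^ t) (2 ^ (t + 1)), Nat.primeCounting (2 ^ (m + (t + 1)) / d) := by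
      have hc : (Ioc (2 ^ t) (2 ^ (t + 1))).card = 2 ^ t := by
        have : 0 < 2 ^ t := by positivity
        rw [Nat.card_Ioc]; omega
      refine le_trans (le_of_eq (by rw [hc, smul_eq_mul]))
        (Finset.card_nsmul_le_sum _ _ (Nat.primeCounting (2 ^ m)) ?_)
      intro d hd
      simp only [mem_Ioc] at hd
      apply Nat.monotone_primeCounting
      have : 0 < 2 ^ t := by positivity
      rw [Nat.le_div_iff_mul_le (by omega), pow_add]
      gcongr
      exact hd.2
    have h3 := cheb m (by omega)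
    have h4 : 2 ^ (m + (t + 1)) ≤ 6 * (m + (t + 1)) * (2 ^ t * Nat.primeCounting (2 ^ m)) := by
      calc 2 ^ (m + (t + 1)) = 2 ^ m * (2 * 2 ^ t) := by ring
        _ ≤ (3 * m * Nat.primeCounting (2 ^ m)) * (2 * 2 ^ t) := by gcongr
        _ = 6 * m * (2 ^ t * Nat.primeCounting (2 ^ m)) := by ring
        _ ≤ _ := by gcongr; omega
    calc (t + 1) * 2 ^ (m + (t + 1)) = t * 2 ^ (m + (t + 1)) + 2 ^ (m + (t + 1)) := by ring
      _ ≤ _ := add_le_add h1 h4
      _ ≤ _ := by rw [mul_add (6 * (m + (t + 1)))]; gcongr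

end Vale.Agent.P012
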