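import Mathlib

namespace Vale.Agent.P012

open Finset

lemma sum_crt {m m' : ℕ} [NeZero m] [NeZero m'] (h : Nat.Coprime m m') (g : ZMod m → ℤ)
    (g' : ZMod m' → ℤ) :
    ∑ n ∈ range (m * m'), g n * g' n = (∑ x, g x) * (∑ y, g' y) := by
  rw [Finset.sum_mul_sum, ← Finset.sum_product']
  refine Finset.sum_bij (fun n _ => ((n : ZMod m), (n : ZMod m'))) (by simp) ?_ ?_ (by simp)
  · intro a ha b hb hab
    simp only [Prod.mk.injEq, ZMod.natCast_eq_natCast_iff] at hab
    have := (Nat.modEq_and_modEq_iff_modEq_mul h).1 hab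
    exact Nat.ModEq.eq_of_lt_of_lt this (mem_range.1 ha) (mem_range.1 hb)
  · rintro ⟨x, y⟩ _
    refine ⟨Nat.chineseRemainder h x.val y.val, ?_, ?_⟩
    · exact mem_range.2 (Nat.chineseRemainder_lt_mul h _ _ (NeZero.ne m) (NeZero.ne m'))
    · have h1 := (Nat.chineseRemainder h x.val y.val).2.1
      have h2 := (Nat.chineseRemainder h x.val y.val).2.2
      rw [← ZMod.natCast_eq_natCast_iff] at h1 h2
      simp only [Prod.mk.injEq]
      exact ⟨by simpa using h1, by simpa using h2⟩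

lemma sum_odd_eq_zero {m : ℕ} [NeZero m] (g : ZMod m → ℤ) (hg : ∀ x, g (-x) = -g x) :
    ∑ x, g x = 0 := by
  have : ∑ x, g x = ∑ x, g (-x) := (Equiv.sum_comp (Equiv.neg (ZMod m)) g).symm
  simp only [hg, Finset.sum_neg_distrib] at this
  linarith

lemma sum_periodic_le (G : ℕ → ℤ) (P : ℕ) (hP : 0 < P) (hper : ∀ n, G (P + n) = G n)
    (h0 : ∑ n ∈ range P, G n = 0) (h1 : ∀ n, G n ≤ 1) :
    ∀ X : ℕ, ∑ n ∈ range X, G n ≤ P := by
  intro X
  induction X using Nat.strong_induction_on with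
  | _ X ih =>
    by_cases hX : X ≤ P
    · calc ∑ n ∈ range X, G n ≤ ∑ n ∈ range X, (1 : ℤ) := Finset.sum_le_sum fun n _ => h1 n
        _ = X := by simp
        _ ≤ P := by exact_mod_cast hX
    · obtain ⟨X', rfl⟩ : ∃ X', X = P + X' := ⟨X - P, by omega⟩
      rw [Finset.sum_range_add, h0]
      simp only [hper, zero_add]
      exact ih X' (by omega)

open Classical in
/-- the odd test function attached to `A` and the modulus `m` -/
noncomputable def tf (A : Finset ℕ) (m : ℕ) (x : ZMod m) : ℤ :=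
  (if ∃ a ∈ A, (a : ZMod m) = x then 1 else 0) - (if ∃ a ∈ A, (a : ZMod m) = -x then 1 else 0)

lemma tf_neg (A : Finset ℕ) (m : ℕ) (x : ZMod m) : tf A m (-x) = -tf A m x := by
  simp [tf]

lemma tf_mul_le (A : Finset ℕ) (m m' : ℕ) (x : ZMod m) (y : ZMod m') :
    tf A m x * tf A m' y ≤ 1 := by
  unfold tf
  split_ifs <;> norm_num

lemma tf_mem (A : Finset ℕ) (m : ℕ) (hbad : ∀ a ∈ A, ∀ a' ∈ A, ¬ m ∣ a + a') {a : ℕ}
    (ha : a ∈ A) : tf A m a = 1 := by
  unfold tf
  rw [if_pos ⟨a, ha, rfl⟩, if_neg]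
  · norm_num
  · rintro ⟨a', ha', h⟩
    apply hbad a ha a' ha'
    rw [← ZMod.natCast_eq_zero_iff]
    push_cast
    rw [h]
    ring

/-- The variance lemma: few pairwise coprime moduli divide no sum of two elements of a
large set. -/
lemma variance (A M : Finset ℕ) (X Y : ℕ) (hA : ∀ a ∈ A, a < X)
    (hM : ∀ m ∈ M, 0 < m ∧ m ≤ Y) (hcop : ∀ m ∈ M, ∀ m' ∈ M, m ≠ m' → Nat.Coprime m m')
    (hbad : ∀ m ∈ M, ∀ a ∈ A, ∀ a' ∈ A, ¬ m ∣ a + a') (hY : 2 * Y ^ 2 ≤ A.card) :
    M.card * A.card ≤ 2 * X := by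
  classical
  rcases Nat.eq_zero_or_pos M.card with h0 | hpos
  · simp [h0]
  have lower : (A.card : ℤ) * (M.card : ℤ) ^ 2 ≤
      ∑ n ∈ range X, (∑ m ∈ M, tf A m n) ^ 2 := by
    calc (A.card : ℤ) * (M.card : ℤ) ^ 2 = ∑ a ∈ A, (∑ m ∈ M, tf A m a) ^ 2 := by
          rw [Finset.sum_congr rfl (g := fun _ => (M.card : ℤ) ^ 2)]
          · simp
          · intro a ha
            rw [Finset.sum_congr rfl (g := fun _ => (1 : ℤ))]
            · simp
            · intro m hm
              exact tf_mem A m (hbad m hm) ha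
      _ ≤ _ := Finset.sum_le_sum_of_subset_of_nonneg
          (fun a ha => mem_range.2 (hA a ha)) (fun _ _ _ => sq_nonneg _)
  have upper : ∑ n ∈ range X, (∑ m ∈ M, tf A m n) ^ 2 ≤
      (M.card : ℤ) * (X + M.card * (Y : ℤ) ^ 2) := by
    calc ∑ n ∈ range X, (∑ m ∈ M, tf A m n) ^ 2
        = ∑ m ∈ M, ∑ m' ∈ M, ∑ n ∈ range X, tf A m n * tf A m' n := by
          simp only [sq, Finset.sum_mul_sum]
          rw [Finset.sum_comm]
          refine Finset.sum_congr rfl fun m _ => ?_
          rw [Finset.sum_comm]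
      _ ≤ ∑ m ∈ M, ∑ m' ∈ M, ((if m' = m then (X : ℤ) else 0) + (Y : ℤ) ^ 2) := by
          refine Finset.sum_le_sum fun m hm => Finset.sum_le_sum fun m' hm' => ?_
          by_cases h : m' = m
          · rw [if_pos h]
            calc _ ≤ ∑ n ∈ range X, (1 : ℤ) := Finset.sum_le_sum fun n _ => tf_mul_le _ _ _ _ _
              _ = X := by simp
              _ ≤ _ := by linarith [sq_nonneg (Y : ℤ)]
          · rw [if_neg h, zero_add]
            obtain ⟨h1, h2⟩ := hM m hm
            obtain ⟨h3, h4⟩ := hM m' hm'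
            haveI : NeZero m := ⟨h1.ne'⟩
            haveI : NeZero m' := ⟨h3.ne'⟩
            have := sum_periodic_le (fun n => tf A m n * tf A m' n) (m * m') (by positivity)
              (by
                intro n
                simp)
              (by
                rw [sum_crt (hcop m hm m' hm' (Ne.symm h)), sum_odd_eq_zero _ (tf_neg A m)]
                simp)
              (fun n => tf_mul_le _ _ _ _ _) X
            refine this.trans ?_
            have : m * m' ≤ Y ^ 2 := by rw [sq]; gcongr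
            exact_mod_cast this
      _ = (M.card : ℤ) * (X + M.card * (Y : ℤ) ^ 2) := by
          rw [Finset.sum_congr rfl (g := fun _ => (X : ℤ) + M.card * (Y : ℤ) ^ 2)]
          · simp
          · intro m hm
            rw [Finset.sum_add_distrib]
            simp [hm]
  have h := lower.trans upper
  have hM0 : (0 : ℤ) < M.card := by exact_mod_cast hpos
  have hY' : 2 * (Y : ℤ) ^ 2 ≤ A.card := by exact_mod_cast hY
  have h2 : (A.card : ℤ) * M.card ≤ X + M.card * (Y : ℤ) ^ 2 := by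
    apply le_of_mul_le_mul_left _ hM0
    calc _ = (A.card : ℤ) * (M.card : ℤ) ^ 2 := by ring
      _ ≤ _ := h
  have h3 : (M.card : ℤ) * A.card ≤ 2 * X := by nlinarith
  exact_mod_cast h3

end Vale.Agent.P012
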