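import Mathlib
import Vale.Agent.P012.Basic
import Vale.Agent.P012.Variance
import Vale.Agent.P012.BigSet

namespace Vale.Agent.P012

open Finset

lemma U_of_dvd_add {k N m a a' : ℕ} (ha : U k ((a : ℚ) / N)) (ha' : U k ((a' : ℚ) / N))
    (h0 : 0 < a) (h : m ∣ a + a') : U (2 * k) ((m : ℚ) / N) := by
  have := ha.add ha'
  rw [← add_div, ← Nat.cast_add, ← two_mul] at this
  exact this.of_dvd (by omega) h

/-- Second round: small multiples of the good primes. -/
lemma second_set (A : Finset ℕ) (X Z N k T K : ℕ)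
    (hA : ∀ a ∈ A, 0 < a ∧ a < X ∧ U k ((a : ℚ) / N)) (hZ : 2 * Z ^ 2 ≤ A.card)
    (hK : 2 * X ≤ K * A.card) (hA0 : 0 < A.card) :
    ∃ B : Finset ℕ, (∀ b ∈ B, 0 < b ∧ b < Z + 1 ∧
        U (2 * k) ((b : ℚ) / ((N * T.factorial : ℕ) : ℚ))) ∧
      ∑ d ∈ Icc 1 T, Nat.primeCounting (Z / d) ≤ B.card + T * (T + 1 + K) := by
  classical
  let Bad : Finset ℕ := (Nat.primesLE Z).filter (fun m => ∀ a ∈ A, ∀ a' ∈ A, ¬ m ∣ a + a')
  have hBad : Bad.card ≤ K := by
    have := variance A Bad X Z (fun a ha => (hA a ha).2.1)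
      (fun m hm => by
        have h := (mem_filter.1 hm).1
        exact ⟨(Nat.prime_of_mem_primesLE h).pos, Nat.le_of_mem_primesLE h⟩)
      (fun m hm m' hm' hne => (Nat.coprime_primes
        (Nat.prime_of_mem_primesLE (mem_filter.1 hm).1)
        (Nat.prime_of_mem_primesLE (mem_filter.1 hm').1)).2 hne)
      (fun m hm => (mem_filter.1 hm).2) hZ
    exact Nat.le_of_mul_le_mul_right (this.trans hK) hA0
  let G : ℕ → Finset ℕ := fun d =>
    (Nat.primesLE (Z / d)).filter (fun p => T < p ∧ p ∉ Bad)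
  let S : Finset (Σ _ : ℕ, ℕ) := (Icc 1 T).sigma G
  have hG : ∀ d ∈ Icc 1 T, ∀ p ∈ G d, p.Prime ∧ T < p ∧ d * p ≤ Z ∧
      U (2 * k) ((p : ℚ) / N) := by
    intro d hd p hp
    obtain ⟨h1, h2, h3⟩ := mem_filter.1 hp
    have hd1 := (mem_Icc.1 hd).1
    have h4 := Nat.le_of_mem_primesLE h1
    have h5 : p * d ≤ Z := (Nat.le_div_iff_mul_le hd1).1 h4
    have hpp := Nat.prime_of_mem_primesLE h1
    refine ⟨hpp, h2, by rwa [mul_comm], ?_⟩
    have h6 : p ∈ Nat.primesLE Z := Nat.mem_primesLE.2 ⟨h4.trans (Nat.div_le_self _ _), hpp⟩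
    simp only [Bad, mem_filter, h6, true_and, not_forall, not_not] at h3
    obtain ⟨a, ha, a', ha', h⟩ := h3
    exact U_of_dvd_add (hA a ha).2.2 (hA a' ha').2.2 (hA a ha).1 h
  refine ⟨S.image (fun x => x.1 * x.2), ?_, ?_⟩
  · intro b hb
    obtain ⟨⟨d, p⟩, hx, rfl⟩ := mem_image.1 hb
    obtain ⟨hd, hp⟩ := mem_sigma.1 hx
    simp only at hd hp ⊢
    obtain ⟨h1, h2, h3, h4⟩ := hG d hd p hp
    obtain ⟨hd1, hd2⟩ := mem_Icc.1 hd
    exact ⟨Nat.mul_pos hd1 h1.pos, by omega,
      h4.mul_dvd (Nat.factorial_pos T) (Nat.dvd_factorial hd1 hd2)⟩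
  · rw [card_image_of_injOn]
    · rw [card_sigma]
      calc ∑ d ∈ Icc 1 T, Nat.primeCounting (Z / d)
          ≤ ∑ d ∈ Icc 1 T, ((G d).card + (T + 1 + K)) := by
            refine Finset.sum_le_sum fun d _ => ?_
            rw [← Nat.primesLE_card_eq_primeCounting]
            have hsub : Nat.primesLE (Z / d) ⊆ G d ∪ (range (T + 1) ∪ Bad) := by
              intro p hp
              simp only [G, mem_union, mem_filter, mem_range, hp, true_and]
              by_cases h1 : T < p
              · by_cases h2 : p ∈ Bad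
                · right; right; exact h2
                · left; exact ⟨h1, h2⟩
              · right; left; omega
            refine (card_le_card hsub).trans ((card_union_le _ _).trans ?_)
            have := card_union_le (range (T + 1)) Bad
            rw [card_range] at this
            omega
        _ = _ := by rw [Finset.sum_add_distrib]; simp
    · rintro ⟨d, p⟩ hx ⟨d', p'⟩ hy hxy
      obtain ⟨hd, hp⟩ := mem_sigma.1 hx
      obtain ⟨hd', hp'⟩ := mem_sigma.1 hy
      simp only at hd hp hd' hp' hxy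
      obtain ⟨h1, h2, -, -⟩ := hG d hd p hp
      obtain ⟨h1', h2', -, -⟩ := hG d' hd' p' hp'
      obtain ⟨hd1, hd2⟩ := mem_Icc.1 hd
      obtain ⟨hd1', hd2'⟩ := mem_Icc.1 hd'
      have hpp : p = p' := by
        have : p ∣ d' * p' := hxy ▸ Dvd.intro_left d rfl
        rcases (Nat.Prime.dvd_mul h1).1 this with h | h
        · have := Nat.le_of_dvd hd1' h
          omega
        · exact (Nat.prime_dvd_prime_iff_eq h1 h1').1 h
      subst hpp
      have : d = d' := Nat.eq_of_mul_eq_mul_right h1.pos hxy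
      subst this
      rfl

/-- Third round: every numerator up to `Y`. -/
lemma all_numerators (B : Finset ℕ) (X Y J N k t : ℕ) (hN : 0 < N)
    (hB : ∀ a ∈ B, 0 < a ∧ a < X ∧ U k ((a : ℚ) / N)) (hY : 2 * Y ^ 2 ≤ B.card)
    (hJ : 2 * X < J * B.card) (hF : 2 * (J * 4 ^ J) ≤ Y) (ht : J ≤ 2 ^ t) :
    ∀ m ≤ Y, U (2 * k + 1 + t) ((m : ℚ) / ((N * (primorial J * 2 ^ t) : ℕ) : ℚ)) := by
  classical
  set F := primorial J with hFdef
  have hF0 : 0 < F := primorial_pos J
  have hF4 : F ≤ 4 ^ J := primorial_le_four_pow J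
  have big : ∀ m ≤ Y, Y < 2 * m →
      U (2 * k + 1 + t) ((m : ℚ) / ((N * (F * 2 ^ t) : ℕ) : ℚ)) := by
    intro m hmY hm
    set e := ∏ p ∈ (Nat.primesLE J).filter (fun p => ¬ p ∣ m), p with he
    have heF : e ∣ F := by
      rw [hFdef, primorial_eq_prod_primesLE]
      exact Finset.prod_dvd_prod_of_subset _ _ _ (filter_subset _ _)
    have heF' : e ≤ F := Nat.le_of_dvd hF0 heF
    have hlt : ∀ j < J, e + j * F < m := by
      intro j hj
      calc e + j * F ≤ (j + 1) * F := by rw [add_mul]; omega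
        _ ≤ J * 4 ^ J := by gcongr; omega
        _ < m := by omega
    have hcop : ∀ l : ℕ, l.Prime → l ≤ J → ∀ j < J, ¬ l ∣ m - (e + j * F) := by
      intro l hl hlJ j hj hdvd
      have h1 : l ∣ F := hl.dvd_primorial_iff.2 hlJ
      have h2 : l ∣ m - (e + j * F) + j * F := dvd_add hdvd (h1.mul_left j)
      have h3 : m - (e + j * F) + j * F + e = m := by have := hlt j hj; omega
      by_cases hlm : l ∣ m
      · have h4 : l ∣ e := by
          rw [← h3] at hlm
          exact (Nat.dvd_add_right h2).1 hlm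
        rw [he, Prime.dvd_finsetProd_iff hl.prime] at h4
        obtain ⟨p, hp, hlp⟩ := h4
        obtain ⟨hp1, hp2⟩ := mem_filter.1 hp
        have := (Nat.prime_dvd_prime_iff_eq hl (Nat.prime_of_mem_primesLE hp1)).1 hlp
        exact hp2 (this ▸ hlm)
      · have h4 : l ∣ e := Finset.dvd_prod_of_mem (fun p => p)
          (mem_filter.2 ⟨Nat.mem_primesLE.2 ⟨hlJ, hl⟩, hlm⟩)
        exact hlm (h3 ▸ dvd_add h2 h4)
    let M : Finset ℕ := (range J).image (fun j => m - (e + j * F))
    have hMc : M.card = J := by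
      rw [card_image_of_injOn, card_range]
      intro i hi j hj hij
      have h1 := hlt i (by simpa using hi)
      have h2 := hlt j (by simpa using hj)
      simp only at hij
      have : i * F = j * F := by omega
      exact Nat.eq_of_mul_eq_mul_right hF0 this
    have key : ∀ i < J, ∀ j < J, i < j →
        Nat.Coprime (m - (e + i * F)) (m - (e + j * F)) := by
      intro i hi j hj hij
      apply Nat.coprime_of_dvd
      intro l hl h1 h2
      have h3 : l ∣ (j - i) * F := by
        have : m - (e + i * F) = m - (e + j * F) + (j - i) * F := by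
          have := hlt j hj
          obtain ⟨c, rfl⟩ : ∃ c, j = i + c := ⟨j - i, by omega⟩
          rw [Nat.add_sub_cancel_left, add_mul] at *
          omega
        rw [this] at h1
        exact (Nat.dvd_add_right h2).1 h1
      apply hcop l hl _ i hi h1
      rcases (Nat.Prime.dvd_mul hl).1 h3 with h | h
      · have := Nat.le_of_dvd (by omega) h
        omega
      · exact hl.dvd_primorial_iff.1 h
    have hex : ∃ j < J, ∃ a ∈ B, ∃ a' ∈ B, m - (e + j * F) ∣ a + a' := by
      by_contra hcon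
      push Not at hcon
      have := variance B M X Y (fun a ha => (hB a ha).2.1)
        (fun x hx => by
          obtain ⟨j, hj, rfl⟩ := mem_image.1 hx
          have := hlt j (mem_range.1 hj)
          omega)
        (fun x hx y hy hne => by
          obtain ⟨i, hi, rfl⟩ := mem_image.1 hx
          obtain ⟨j, hj, rfl⟩ := mem_image.1 hy
          rcases lt_trichotomy i j with h | h | h
          · exact key i (mem_range.1 hi) j (mem_range.1 hj) h
          · exact absurd (by rw [h]) hne
          · exact (key j (mem_range.1 hj) i (mem_range.1 hi) h).symm)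
        (fun x hx => by
          obtain ⟨j, hj, rfl⟩ := mem_image.1 hx
          exact hcon j (mem_range.1 hj)) hY
      rw [hMc] at this
      omega
    obtain ⟨j, hj, a, ha, a', ha', hdvd⟩ := hex
    have h1 := (U_of_dvd_add (hB a ha).2.2 (hB a' ha').2.2 (hB a ha).1 hdvd).div
      (t := F * 2 ^ t) (by positivity)
    have h2 : U 1 ((e : ℚ) / ((N * (F * 2 ^ t) : ℕ) : ℚ)) :=
      U_dvd (by positivity) ((heF.mul_right _).mul_left _)
    have h3 := (U_binary t j (by omega)).div hN
    have h4 := (h1.add h2).add h3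
    have e' : (m : ℚ) / ((N * (F * 2 ^ t) : ℕ) : ℚ) =
        ((m - (e + j * F) : ℕ) : ℚ) / N / ((F * 2 ^ t : ℕ) : ℚ) +
          (e : ℚ) / ((N * (F * 2 ^ t) : ℕ) : ℚ) + (j : ℚ) / ((2 ^ t : ℕ) : ℚ) / N := by
      rw [Nat.cast_sub (hlt j hj).le]
      have : (N : ℚ) ≠ 0 := by positivity
      have : (F : ℚ) ≠ 0 := by positivity
      push_cast
      field_simp
      ring
    rw [e']
    exact h4
  intro m hm
  rcases Nat.eq_zero_or_pos m with rfl | hm0
  · simpa using U_zero _
  have h1 : m * (Y / m) + Y % m = Y := Nat.div_add_mod Y m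
  have h2 : Y % m < m := Nat.mod_lt _ hm0
  have h3 : 0 < Y / m := Nat.div_pos hm hm0
  have h4 : m ≤ m * (Y / m) := Nat.le_mul_of_pos_right _ h3
  exact (big (m * (Y / m)) (by omega) (by omega)).of_dvd (by omega) (dvd_mul_right _ _)

/-- Tiny fractions with any denominator. -/
lemma tiny {N Y k h a B : ℕ} (hN : 0 < N) (hY : 0 < Y) (H : ∀ m < Y, U k ((m : ℚ) / N))
    (haB : a * N < B) (hB : B ≤ Y ^ h) : U (2 * (h * k)) ((a : ℚ) / B) := by
  have hB0 : 0 < B := by omega
  have hd := U_digits hY H h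
  set N' := N * Y ^ h with hN'
  have hN'0 : 0 < N' := by positivity
  have h1 : a * N' / B < Y ^ h := by
    rw [Nat.div_lt_iff_lt_mul hB0, hN', ← mul_assoc, mul_comm _ B]
    exact Nat.mul_lt_mul_of_pos_right haB (by positivity)
  have h2 : a * N' % B < Y ^ h := lt_of_lt_of_le (Nat.mod_lt _ hB0) hB
  have h3 := (hd _ h1).add ((hd _ h2).div hB0)
  have e : (a : ℚ) / B = ((a * N' / B : ℕ) : ℚ) / N' + ((a * N' % B : ℕ) : ℚ) / N' / B := by
    have hm' : (a : ℚ) * N' = B * ((a * N' / B : ℕ) : ℚ) + ((a * N' % B : ℕ) : ℚ) := by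
      exact_mod_cast (Nat.div_add_mod (a * N') B).symm
    generalize ((a * N' / B : ℕ) : ℚ) = u at *
    generalize ((a * N' % B : ℕ) : ℚ) = v at *
    have : (N' : ℚ) ≠ 0 := by positivity
    have : (B : ℚ) ≠ 0 := by positivity
    field_simp
    linarith
  rw [e, two_mul]
  exact h3

end Vale.Agent.P012
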