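import Mathlib
import Vale.Agent.P012.Steps

namespace Vale.Agent.P012

open Finset

lemma sixty_mul_le (l : ℕ) (hl : 10 ≤ l) : 60 * l ≤ 2 ^ l := by
  induction l, hl using Nat.le_induction with
  | base => norm_num
  | succ n hn ih => rw [pow_succ]; omega

/-- First round: a big set of short numerators. -/
lemma first_set (l : ℕ) (hl : 10 ≤ l) :
    ∃ (N : ℕ) (A : Finset ℕ), 0 < N ∧ N ≤ (2 ^ (2 ^ l * l)) ^ 23 ∧
      (2 ^ (2 ^ l * l)) ^ 19 ≤ A.card ∧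
      ∀ a ∈ A, 0 < a ∧ a < (2 ^ (2 ^ l * l)) ^ 23 ∧ U (20 * l) ((a : ℚ) / N) := by
  have h60 := sixty_mul_le l hl
  have c1 := cheb (2 * l) (by omega)
  have c2 := cheb (2 ^ l + 3 * l) (by omega)
  obtain ⟨r, hr⟩ : ∃ r, r = 2 ^ l := ⟨_, rfl⟩
  have e1 : 2 ^ (2 * l) = r * r := by rw [hr, two_mul, pow_add]
  have e2 : 2 ^ (r + 3 * l) = 2 ^ r * (r * r * r) := by
    rw [pow_add, hr, mul_comm 3 l, pow_mul]; ring
  rw [← hr] at h60 c2 ⊢
  have hr0 : 0 < r := by omega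
  have h1 : r ≤ (Nat.primesLE (2 ^ (2 * l))).card := by
    rw [Nat.primesLE_card_eq_primeCounting]
    apply Nat.le_of_mul_le_mul_left _ hr0
    calc r * r = 2 ^ (2 * l) := e1.symm
      _ ≤ _ := c1
      _ ≤ _ := by gcongr; omega
  obtain ⟨R, hR, hRc⟩ := Finset.exists_subset_card_eq h1
  have hRp : ∀ p ∈ R, p.Prime := fun p hp => Nat.prime_of_mem_primesLE (hR hp)
  obtain ⟨D, hDc, hD⟩ := exists_divisor_set R hRp
  set P := ∏ p ∈ R, p with hP
  have hP0 : 0 < P := Finset.prod_pos fun p hp => (hRp p hp).pos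
  have hPle : P ≤ 2 ^ (2 * (r * l)) := by
    calc P ≤ (2 ^ (2 * l)) ^ R.card :=
          Finset.prod_le_pow_card _ _ _ fun p hp => Nat.le_of_mem_primesLE (hR hp)
      _ = _ := by rw [hRc, ← pow_mul]; congr 1; ring
  rw [hRc] at hDc
  obtain ⟨p, hp, hpQ, D', hD', hD'c, hsep⟩ := exists_modulus D (2 * (r * l)) (2 ^ (r + 3 * l))
    (fun d hd => (Nat.le_of_dvd hP0 (hD d hd)).trans hPle)
    (by have : 0 < l := by omega
        positivity)
    (by rw [hDc]; positivity)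
    (by
      rw [hDc]
      apply Nat.le_of_mul_le_mul_left _ (show 0 < 6 * r by omega)
      calc 6 * r * (2 * 2 ^ r * (2 * (r * l))) = 2 ^ r * (r * r * (24 * l)) := by ring
        _ ≤ 2 ^ r * (r * r * r) := by gcongr; omega
        _ = 2 ^ (r + 3 * l) := e2.symm
        _ ≤ _ := c2
        _ ≤ _ := by gcongr ?_ * _; omega)
  obtain ⟨A, hAc, hA⟩ := bigset D' P p hP0 hp.two_le (fun d hd => hD d (hD' hd)) hsep (20 * l)
  have hp0 := hp.pos
  have hN : P * p ^ (20 * l) ≤ (2 ^ (r * l)) ^ 23 := by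
    calc P * p ^ (20 * l) ≤ 2 ^ (2 * (r * l)) * (2 ^ (r + 3 * l)) ^ (20 * l) := by gcongr
      _ = 2 ^ (22 * (r * l) + (60 * l) * l) := by rw [← pow_mul, ← pow_add]; congr 1; ring
      _ ≤ 2 ^ (22 * (r * l) + r * l) := by gcongr; norm_num
      _ = _ := by rw [← pow_mul]; congr 1; ring
  refine ⟨P * p ^ (20 * l), A, by positivity, hN, ?_, ?_⟩
  · obtain ⟨r', rfl⟩ : ∃ r', r = r' + 1 := ⟨r - 1, by omega⟩
    have h2 : 2 ^ r' ≤ D'.card := by rw [hDc, pow_succ] at hD'c; omega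
    calc (2 ^ ((r' + 1) * l)) ^ 19 = 2 ^ ((19 * (r' + 1)) * l) := by
          rw [← pow_mul]; congr 1; ring
      _ ≤ 2 ^ ((20 * r') * l) :=
          Nat.pow_le_pow_right (by norm_num) (Nat.mul_le_mul_right _ (by omega))
      _ = (2 ^ r') ^ (20 * l) := by rw [← pow_mul]; congr 1; ring
      _ ≤ D'.card ^ (20 * l) := by gcongr
      _ = _ := hAc.symm
  · intro a ha
    obtain ⟨h2, h3, h4⟩ := hA a ha
    exact ⟨by omega, by omega, h4⟩

/-- All numerators below `W ^ 4` over one denominator at most `W ^ 27`. -/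
lemma all_small (τ l : ℕ) (hτ : 218 ≤ τ) (hl : 10 ≤ l) (hT : (2 ^ τ).factorial ≤ l) :
    ∃ N : ℕ, 0 < N ∧ N ≤ (2 ^ (2 ^ l * l)) ^ 27 ∧
      ∀ m : ℕ, m < (2 ^ (2 ^ l * l)) ^ 4 → U (82 * l + 1) ((m : ℚ) / N) := by
  obtain ⟨N, A, hN0, hN, hAc, hA⟩ := first_set l hl
  have h60 := sixty_mul_le l hl
  have hwl : 2 ^ l * l ≤ 2 ^ (2 * l) := by
    rw [two_mul, pow_add]
    gcongr
    exact Nat.lt_two_pow_self.le
  obtain ⟨w, hw⟩ : ∃ w, w = 2 ^ l * l := ⟨_, rfl⟩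
  have hlw : 600 * l ≤ w := by rw [hw]; gcongr; omega
  rw [← hw] at hN hAc hA hwl ⊢
  have hτT : τ < 2 ^ τ := Nat.lt_two_pow_self
  have hTT : 2 ^ τ ≤ (2 ^ τ).factorial := Nat.self_le_factorial _
  have cs := cheb_sum (9 * w) τ (by omega)
  have e9 : 2 ^ (9 * w) = (2 ^ w) ^ 9 := by rw [← pow_mul, mul_comm]
  have e4 : 4 ^ w = (2 ^ w) ^ 2 := by rw [← pow_mul, mul_comm, pow_mul]; norm_num
  have h2l : 2 ^ (2 * l) ≤ 2 ^ w := Nat.pow_le_pow_right (by norm_num) (by omega)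
  rw [e9] at cs
  have hwW : w < 2 ^ w := Nat.lt_two_pow_self
  have hF4 : primorial w ≤ 4 ^ w := primorial_le_four_pow w
  have hF0 : 0 < primorial w := primorial_pos w
  obtain ⟨W, hW⟩ : ∃ W, W = 2 ^ w := ⟨_, rfl⟩
  obtain ⟨T, hT'⟩ : ∃ T, T = 2 ^ τ := ⟨_, rfl⟩
  rw [← hW] at hN hAc hA cs e4 h2l hwW ⊢
  rw [← hT'] at cs hT hTT hτT
  have hW2 : 216 ≤ W := by omega
  have hW1 : 1 ≤ W := by omega
  obtain ⟨B, hB, hBc⟩ := second_set A (W ^ 23) (W ^ 9) N (20 * l) T (2 * W ^ 4) hA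
    (by
      calc 2 * (W ^ 9) ^ 2 = 2 * W ^ 18 := by ring
        _ ≤ W * W ^ 18 := by gcongr; omega
        _ = W ^ 19 := by ring
        _ ≤ _ := hAc)
    (by
      calc 2 * W ^ 23 = 2 * W ^ 4 * W ^ 19 := by ring
        _ ≤ _ := by gcongr)
    (lt_of_lt_of_le (by positivity) hAc)
  have hW4 : W ≤ W ^ 4 := Nat.le_self_pow (by norm_num) W
  have herr : 54 * w * (T * (T + 1 + 2 * W ^ 4)) ≤ W ^ 9 := by
    calc 54 * w * (T * (T + 1 + 2 * W ^ 4)) ≤ 54 * W * (W * (4 * W ^ 4)) := by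
          gcongr ?_ * ?_ * (?_ * ?_) <;> omega
      _ = 216 * W ^ 6 := by ring
      _ ≤ W * W ^ 6 := by gcongr
      _ = W ^ 7 := by ring
      _ ≤ W ^ 9 := Nat.pow_le_pow_right hW1 (by norm_num)
  have hBig : 2 * (W ^ 9 + 1) < w * B.card := by
    have h1 : τ * W ^ 9 ≤ 54 * (w * B.card) + W ^ 9 := by
      calc τ * W ^ 9 ≤ _ := cs
        _ ≤ 6 * (9 * w) * (B.card + T * (T + 1 + 2 * W ^ 4)) := by gcongr
        _ = 54 * (w * B.card) + 54 * w * (T * (T + 1 + 2 * W ^ 4)) := by ring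
        _ ≤ _ := by gcongr
    have h2 : 218 * W ^ 9 ≤ τ * W ^ 9 := by gcongr
    have h3 : 1 ≤ W ^ 9 := Nat.one_le_pow _ _ hW1
    omega
  have hBY : 2 * (W ^ 4) ^ 2 ≤ B.card := by
    apply Nat.le_of_mul_le_mul_left _ (show 0 < W by omega)
    calc W * (2 * (W ^ 4) ^ 2) = 2 * W ^ 9 := by ring
      _ ≤ w * B.card := by omega
      _ ≤ _ := by gcongr
  have hall := all_numerators B (W ^ 9 + 1) (W ^ 4) w (N * T.factorial) (2 * (20 * l)) (2 * l)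
    (Nat.mul_pos hN0 (Nat.factorial_pos T)) hB hBY hBig
    (by
      rw [e4]
      calc 2 * (w * W ^ 2) ≤ W * (W * W ^ 2) := by gcongr; omega
        _ = W ^ 4 := by ring)
    hwl
  refine ⟨N * T.factorial * (primorial w * 2 ^ (2 * l)), ?_, ?_, ?_⟩
  · have := Nat.factorial_pos T
    positivity
  · calc N * T.factorial * (primorial w * 2 ^ (2 * l)) ≤ W ^ 23 * W * (W ^ 2 * W) := by
          gcongr
          · omega
          · omega
      _ = W ^ 27 := by ring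
  · intro m hm
    exact (hall m hm.le).mono (by omega)

lemma main_nat (τ l : ℕ) (hτ : 218 ≤ τ) (hl : 10 ≤ l) (hT : (2 ^ τ).factorial ≤ l)
    (a b : ℕ) (hab : a < b) (hb : b ≤ 2 ^ (2 ^ l)) : U (2700 * l) ((a : ℚ) / b) := by
  obtain ⟨N, hN0, hN, hall⟩ := all_small τ l hτ hl hT
  have hwl : 2 ^ l * l ≤ 2 ^ (2 * l) := by
    rw [two_mul, pow_add]
    gcongr
    exact Nat.lt_two_pow_self.le
  have hbW : b ≤ 2 ^ (2 ^ l * l) := by
    refine hb.trans (Nat.pow_le_pow_right (by norm_num) ?_)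
    exact Nat.le_mul_of_pos_right _ (by omega)
  have hL : (2 ^ (2 ^ l * l)) ^ 32 ≤ (1 * (1 + 1)) ^ (2 ^ (2 * l + 5)) := by
    rw [← pow_mul]
    apply Nat.pow_le_pow_right (by norm_num)
    rw [pow_add]
    omega
  have hW2 : 2 ≤ 2 ^ (2 ^ l * l) := by
    apply Nat.le_self_pow
    have : 0 < l := by omega
    positivity
  obtain ⟨W, hW⟩ : ∃ W, W = 2 ^ (2 ^ l * l) := ⟨_, rfl⟩
  rw [← hW] at hN hall hbW hL hW2
  have hW1 : 1 ≤ W := by omega
  have H : ∀ a B : ℕ, a ≤ W → W ^ 32 ≤ B → B ≤ (W ^ 32) ^ 2 →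
      U (2 * (16 * (82 * l + 1))) ((a : ℚ) / B) := by
    intro a B ha h1 h2
    apply tiny hN0 (by positivity) hall
    · calc a * N ≤ W * W ^ 27 := by gcongr
        _ = W ^ 28 := by ring
        _ < W ^ 32 := Nat.pow_lt_pow_right (by omega) (by norm_num)
        _ ≤ B := h1
    · calc B ≤ _ := h2
        _ = _ := by ring
  rcases Nat.eq_zero_or_pos a with rfl | ha0
  · simpa using U_zero _
  obtain ⟨n, a', hn, hnb, ha', h1, h2⟩ := greedy_step (u := 1) (b := b) ha0 one_pos (by omega)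
  rw [h2]
  refine (U.add (k := 2 * (16 * (82 * l + 1)) + (2 * l + 5)) (l := 1) ?_ (U_one hn)).mono
    (by omega)
  rcases h1 with rfl | h1
  · simpa using U_zero _
  refine greedy H (2 * l + 5) a' (b * n) (1 * (1 + 1)) (by omega) ?_ (by norm_num) h1 hL
  calc b * n ≤ W * W := by gcongr; omega
    _ = W ^ 2 := by ring
    _ ≤ W ^ 64 := Nat.pow_le_pow_right hW1 (by norm_num)
    _ = _ := by ring

/-- The main bound with a natural-number parameter. -/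
theorem main_exists : ∃ l₀ : ℕ, ∀ l ≥ l₀, ∀ a b : ℕ, a < b → b ≤ 2 ^ (2 ^ l) →
    ∃ S : Finset ℕ, S.card ≤ 2700 * l ∧ (∀ n ∈ S, 2 ≤ n) ∧
      ∑ n ∈ S, (1 : ℚ) / n = (a : ℚ) / b := by
  obtain ⟨τ, hτ⟩ : ∃ τ : ℕ, 218 ≤ τ := ⟨218, le_rfl⟩
  refine ⟨max 10 (2 ^ τ).factorial, fun l hl a b hab hb => ?_⟩
  apply (main_nat τ l hτ (le_of_max_le_left hl) (le_of_max_le_right hl) a b hab hb).distinct
  have : (0 : ℚ) < b := by exact_mod_cast (by omega : 0 < b)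
  rw [div_lt_one this]
  exact_mod_cast hab

end Vale.Agent.P012
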