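import Mathlib
import Vale.Agent.P012.Main

namespace Vale.Agent.P012

open Finset

lemma loglog_ge (m b : ℕ) (hm : 2 ≤ m) (hb : 2 ^ (2 ^ m) ≤ b) :
    ((m : ℝ) + 1) / 4 ≤ Real.log (Real.log b) := by
  have l2 : (0.6931471803 : ℝ) < Real.log 2 := Real.log_two_gt_d9
  have h1 : (2 : ℝ) ^ m * Real.log 2 ≤ Real.log b := by
    have : ((2 : ℝ) ^ (2 ^ m)) ≤ b := by exact_mod_cast hb
    have h := Real.log_le_log (by positivity) this
    rw [Real.log_pow] at h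
    exact_mod_cast h
  have h2 : (2 : ℝ) ^ (m - 1) ≤ Real.log b := by
    obtain ⟨k, rfl⟩ : ∃ k, m = k + 1 := ⟨m - 1, by omega⟩
    rw [Nat.add_sub_cancel]
    rw [pow_succ] at h1
    have : (0 : ℝ) < 2 ^ k := by positivity
    nlinarith
  have h3 := Real.log_le_log (by positivity) h2
  rw [Real.log_pow, Nat.cast_sub (by omega)] at h3
  by_cases h : m = 2
  · subst h
    have h4 : (4 : ℝ) * Real.log 2 ≤ Real.log b := by norm_num at h1; linarith
    have h5 : Real.exp (3 / 4) ≤ Real.log b := by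
      have : Real.exp (3 / 4) ≤ Real.exp 1 := Real.exp_le_exp.2 (by norm_num)
      have := Real.exp_one_lt_d9
      linarith
    have := Real.log_le_log (Real.exp_pos _) h5
    rw [Real.log_exp] at this
    norm_num
    linarith
  · have : (3 : ℝ) ≤ m := by exact_mod_cast (by omega : 3 ≤ m)
    push_cast at h3
    nlinarith

theorem upper : ∃ C : ℝ, ∃ b₀ : ℕ, ∀ b ≥ b₀, ∀ a : ℕ, a < b →
    ∃ S : Finset ℕ, (∀ n ∈ S, 2 ≤ n) ∧ ∑ n ∈ S, (1 : ℚ) / n = (a : ℚ) / b ∧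
      (S.card : ℝ) ≤ C * Real.log (Real.log b) := by
  obtain ⟨l₀, H⟩ := main_exists
  refine ⟨10800, 2 ^ (2 ^ (l₀ + 2)), fun b hb a hab => ?_⟩
  have hb0 : b ≠ 0 := by omega
  have h1 : 2 ^ (l₀ + 2) ≤ Nat.log 2 b := Nat.le_log_of_pow_le (by norm_num) hb
  have hL0 : Nat.log 2 b ≠ 0 := by
    have : 0 < 2 ^ (l₀ + 2) := by positivity
    omega
  have h2 : l₀ + 2 ≤ Nat.log 2 (Nat.log 2 b) := Nat.le_log_of_pow_le (by norm_num) h1
  set m := Nat.log 2 (Nat.log 2 b) with hm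
  have h3 : b ≤ 2 ^ (2 ^ (m + 1)) := by
    have a1 : b < 2 ^ (Nat.log 2 b + 1) := Nat.lt_pow_succ_log_self (by norm_num) b
    have a2 : Nat.log 2 b < 2 ^ (m + 1) := Nat.lt_pow_succ_log_self (by norm_num) _
    exact a1.le.trans (Nat.pow_le_pow_right (by norm_num) a2)
  have h4 : 2 ^ (2 ^ m) ≤ b :=
    (Nat.pow_le_pow_right (by norm_num) (Nat.pow_log_le_self 2 hL0)).trans
      (Nat.pow_log_le_self 2 hb0)
  obtain ⟨S, hS1, hS2, hS3⟩ := H (m + 1) (by omega) a b hab h3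
  refine ⟨S, hS2, hS3, ?_⟩
  have h5 := loglog_ge m b (by omega) h4
  have h6 : (S.card : ℝ) ≤ 2700 * ((m : ℝ) + 1) := by exact_mod_cast hS1
  linarith

end Vale.Agent.P012
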