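import Mathlib
import Vale.Agent.P012.Upper

namespace Vale.Agent.P012

open Finset

lemma denom_bound (K b : ℕ) (hb : 0 < b) : ∀ k : ℕ, k + 1 ≤ K → ∀ (S : Finset ℕ) (q : ℕ) (p : ℤ),
    S.card = k → (∀ n ∈ S, 0 < n) → 0 < q → ∑ n ∈ S, (1 : ℚ) / n + 1 / b = p / q →
    b ≤ (K * q) ^ (2 ^ k) := by
  classical
  intro k
  induction k with
  | zero =>
    intro hK S q p hS _ hq h
    rw [card_eq_zero] at hS
    subst hS
    simp only [sum_empty, zero_add] at h
    have hb' : (0 : ℚ) < b := by exact_mod_cast hb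
    have hq' : (0 : ℚ) < q := by exact_mod_cast hq
    have h1 : (q : ℚ) = p * b := by field_simp at h; linarith
    have h2 : (q : ℤ) = p * b := by exact_mod_cast h1
    have hp : 1 ≤ p := by
      by_contra hp
      have : p * b ≤ 0 := mul_nonpos_of_nonpos_of_nonneg (by omega) (by positivity)
      omega
    have : (b : ℤ) ≤ q := by nlinarith
    have : b ≤ q := by exact_mod_cast this
    simp only [pow_zero, pow_one]
    nlinarith
  | succ k ih =>
    intro hK S q p hS hpos hq h
    have hb' : (0 : ℚ) < b := by exact_mod_cast hb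
    have hq' : (0 : ℚ) < q := by exact_mod_cast hq
    have hKq : 0 < K * q := Nat.mul_pos (by omega) hq
    by_cases hbK : b ≤ K * q
    · exact hbK.trans (Nat.le_self_pow (by positivity) _)
    have hsum : 0 ≤ ∑ n ∈ S, (1 : ℚ) / n := Finset.sum_nonneg fun _ _ => by positivity
    have hp : (1 : ℚ) ≤ p := by
      have : (0 : ℚ) < p / q := by rw [← h]; positivity
      have : (0 : ℚ) < p := by
        by_contra h0
        have : (p : ℚ) / q ≤ 0 := div_nonpos_of_nonpos_of_nonneg (by linarith) hq'.le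
        linarith
      have : 0 < p := by exact_mod_cast this
      exact_mod_cast this
    obtain ⟨n, hn, hnK⟩ : ∃ n ∈ S, n ≤ K * q := by
      by_contra hcon
      push Not at hcon
      have hKq' : (0 : ℚ) < ((K * q : ℕ) : ℚ) := by exact_mod_cast hKq
      have h1 : ∑ n ∈ S, (1 : ℚ) / n ≤ (k + 1 : ℕ) * (1 / ((K * q : ℕ) : ℚ)) := by
        rw [← hS, ← nsmul_eq_mul]
        apply Finset.sum_le_card_nsmul
        intro n hn
        apply one_div_le_one_div_of_le hKq'
        exact_mod_cast (hcon n hn).le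
      have h2 : (1 : ℚ) / b < 1 / ((K * q : ℕ) : ℚ) := by
        apply one_div_lt_one_div_of_lt hKq'
        exact_mod_cast (by omega : K * q < b)
      have h3 : (1 : ℚ) / q ≤ p / q := by gcongr
      have h4 : ((k + 1 : ℕ) + 1 : ℚ) * (1 / ((K * q : ℕ) : ℚ)) ≤ 1 / q := by
        have hK' : ((k + 1 : ℕ) + 1 : ℚ) ≤ K := by exact_mod_cast hK
        have hK0 : (0 : ℚ) < K := by exact_mod_cast (by omega : 0 < K)
        calc _ ≤ (K : ℚ) * (1 / ((K * q : ℕ) : ℚ)) := by gcongr
          _ = 1 / q := by push_cast; field_simp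
      linarith
    have hn0 := hpos n hn
    have hn' : (0 : ℚ) < n := by exact_mod_cast hn0
    have := ih (by omega) (S.erase n) (q * n) (p * n - q) (by rw [card_erase_of_mem hn]; omega)
      (fun m hm => hpos m (mem_of_mem_erase hm)) (by positivity) (by
        rw [← Finset.add_sum_erase _ _ hn] at h
        have : ∑ x ∈ S.erase n, (1 : ℚ) / x + 1 / b = p / q - 1 / n := by linarith
        rw [this]
        push_cast
        field_simp)
    calc b ≤ (K * (q * n)) ^ 2 ^ k := this
      _ ≤ (K * (q * (K * q))) ^ 2 ^ k := by gcongr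
      _ = _ := by rw [pow_succ, mul_comm (2 ^ k), pow_mul]; congr 1; ring

theorem lower (b : ℕ) (hb : 2 ≤ b) (S : Finset ℕ) (hS : ∀ n ∈ S, 2 ≤ n)
    (h : ∑ n ∈ S, (1 : ℚ) / n = ((b - 1 : ℕ) : ℚ) / b) :
    Real.log (Real.log b) ≤ 2 * S.card := by
  have hb' : (0 : ℚ) < b := by exact_mod_cast (by omega : 0 < b)
  have h1 := denom_bound (S.card + 1) b (by omega) S.card le_rfl S 1 1 rfl
    (fun n hn => by have := hS n hn; omega) one_pos (by
      rw [h, Nat.cast_sub (by omega)]
      push_cast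
      field_simp
      ring)
  set k := S.card
  have h2 : b ≤ 2 ^ (4 ^ k) := by
    calc b ≤ ((k + 1) * 1) ^ 2 ^ k := h1
      _ ≤ (2 ^ k) ^ 2 ^ k := by
        gcongr
        have : k < 2 ^ k := Nat.lt_two_pow_self
        omega
      _ = 2 ^ (k * 2 ^ k) := by rw [← pow_mul]
      _ ≤ 2 ^ (2 ^ k * 2 ^ k) := by
        gcongr
        · norm_num
        · exact Nat.lt_two_pow_self.le
      _ = _ := by rw [← mul_pow, show 2 * 2 = 4 from rfl]
  have hb1 : (1 : ℝ) < b := by exact_mod_cast (by omega : 1 < b)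
  have l2 : Real.log 2 < 0.6931471808 := Real.log_two_lt_d9
  have h3 : Real.log b ≤ (4 : ℝ) ^ k := by
    have : (b : ℝ) ≤ 2 ^ (4 ^ k) := by exact_mod_cast h2
    have h := Real.log_le_log (by positivity) this
    rw [Real.log_pow] at h
    push_cast at h
    have : (0 : ℝ) < 4 ^ k := by positivity
    nlinarith
  have h4 := Real.log_le_log (Real.log_pos hb1) h3
  rw [Real.log_pow, show (4 : ℝ) = 2 ^ 2 by norm_num, Real.log_pow] at h4
  have : (0 : ℝ) ≤ k := by positivity
  push_cast at h4
  nlinarith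

lemma U_exists : ∀ a b : ℕ, a < b → U a ((a : ℚ) / b) := by
  intro a
  induction a using Nat.strong_induction_on with
  | _ a ih =>
    intro b hab
    rcases Nat.eq_zero_or_pos a with rfl | ha0
    · simpa using U_zero _
    obtain ⟨n, a', hn, -, ha', -, h2⟩ := greedy_step (u := 1) (b := b) ha0 one_pos (by omega)
    rw [h2]
    have : a' < b * n := lt_of_lt_of_le (ha'.trans hab) (Nat.le_mul_of_pos_right _ hn)
    exact ((ih a' ha' _ this).add (U_one hn)).mono (by omega)

theorem exists_expansion (a b : ℕ) (hab : a < b) :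
    ∃ S : Finset ℕ, (∀ n ∈ S, 2 ≤ n) ∧ ∑ n ∈ S, (1 : ℚ) / n = (a : ℚ) / b := by
  have : (0 : ℚ) < b := by exact_mod_cast (by omega : 0 < b)
  obtain ⟨S, -, h⟩ := (U_exists a b hab).distinct (by
    rw [div_lt_one this]
    exact_mod_cast hab)
  exact ⟨S, h⟩

end Vale.Agent.P012
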